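import Mathlib
import Vale.Agent.P249.Defs
import Vale.Agent.P249.Main

open MeasureTheory
open scoped ENNReal

namespace Vale.Agent.Results.P249.PowerBound

open Vale.Agent.P249

universe u

theorem result (p : ℝ≥0∞) [Fact (1 ≤ p)] (hp : p ≠ ∞) :
    (∀ ε : ℝ, 0 < ε → ε ≤ 1 → ∀ D : ℝ, 10 ^ 12 * (p.toReal / ε) ^ 3 ≤ D →
      ∀ᶠ n : ℕ in Filter.atTop,
        Suffices.{u} p n D (dimLp.{u} p n D) ∧ (dimLp.{u} p n D : ℝ) ≤ (n : ℝ) ^ ε) ∧
    (∀ D : ℝ, 10 ^ 13 * p.toReal ^ 3 ≤ D →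
      (fun n : ℕ => (dimLp.{u} p n D : ℝ)) =o[Filter.atTop] (fun n : ℕ => (n : ℝ))) := by
  have key : ∀ ε : ℝ, 0 < ε → ε ≤ 1 → ∀ D : ℝ, 10 ^ 12 * (p.toReal / ε) ^ 3 ≤ D →
      ∀ᶠ n : ℕ in Filter.atTop,
        Suffices.{u} p n D (dimLp.{u} p n D) ∧ (dimLp.{u} p n D : ℝ) ≤ (n : ℝ) ^ ε := by
    intro ε hε0 hε1 D hD
    obtain ⟨n₀, hn₀⟩ := suffices_pow.{u} p hp ε hε0 hε1
    filter_upwards [Filter.eventually_ge_atTop n₀] with n hn
    obtain ⟨d, hd1, hd2⟩ := hn₀ n hn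
    obtain ⟨h1, h2⟩ := dimLp_spec.{u} p n d D (hd2 D hD)
    refine ⟨h1, le_trans ?_ hd1⟩
    exact_mod_cast h2
  refine ⟨key, fun D hD => ?_⟩
  have hP := one_le_toReal hp
  have h1 := key (1 / 2) (by norm_num) (by norm_num) D (by
    have : 10 ^ 12 * (p.toReal / (1 / 2)) ^ 3 = 8 * 10 ^ 12 * p.toReal ^ 3 := by ring
    rw [this]
    have : 0 ≤ p.toReal ^ 3 := by positivity
    nlinarith)
  have h2 : (fun n : ℕ => (dimLp.{u} p n D : ℝ)) =O[Filter.atTop]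
      (fun n : ℕ => (n : ℝ) ^ (1 / 2 : ℝ)) := by
    apply Asymptotics.IsBigO.of_bound 1
    filter_upwards [h1] with n hn
    rw [one_mul, Real.norm_of_nonneg (Nat.cast_nonneg _),
      Real.norm_of_nonneg (Real.rpow_nonneg (Nat.cast_nonneg _) _)]
    exact hn.2
  have h3 : (fun x : ℝ => x ^ (1 / 2 : ℝ)) =o[Filter.atTop] (fun x : ℝ => x) := by
    apply Asymptotics.isLittleO_of_tendsto'
    · filter_upwards [Filter.eventually_gt_atTop (0:ℝ)] with x hx h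
      exact absurd h hx.ne'
    · have h5 := tendsto_rpow_neg_atTop (show (0:ℝ) < 1 / 2 by norm_num)
      refine h5.congr' ?_
      filter_upwards [Filter.eventually_gt_atTop (0:ℝ)] with x hx
      rw [show (-(1 / 2) : ℝ) = 1 / 2 - 1 by norm_num, Real.rpow_sub hx, Real.rpow_one]
  exact h2.trans_isLittleO (h3.comp_tendsto (tendsto_natCast_atTop_atTop (R := ℝ)))

end Vale.Agent.Results.P249.PowerBound
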