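import Mathlib
import Vale.Agent.P249.Defs
import Vale.Agent.P249.Low.Cor
import Vale.Agent.Results.P249.PowerBound

open MeasureTheory
open scoped ENNReal

namespace Vale.Agent.Results.P249.AllBounds

open Vale.Agent.P249

universe u

theorem result (p : ℝ≥0∞) [Fact (1 ≤ p)] (hp : p ≠ ∞) :
    (∀ ε : ℝ, 0 < ε → ε ≤ 1 → ∀ D : ℝ, 10 ^ 12 * (p.toReal / ε) ^ 3 ≤ D →
      ∀ᶠ n : ℕ in Filter.atTop,
        Suffices.{u} p n D (dimLp.{u} p n D) ∧ (dimLp.{u} p n D : ℝ) ≤ (n : ℝ) ^ ε) ∧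
    (∀ D : ℝ, 10 ^ 13 * p.toReal ^ 3 ≤ D →
      (fun n : ℕ => (dimLp.{u} p n D : ℝ)) =o[Filter.atTop] (fun n : ℕ => (n : ℝ))) ∧
    (∀ D : ℝ, 1 < D → ∃ C : ℝ, 0 < C ∧ ∀ n : ℕ, 2 ≤ n →
      Suffices.{u} p n D (dimLp.{u} p n D) ∧
      (dimLp.{u} p n D : ℝ) ≤ C * n * Real.log n ^ (p.toReal + 1)) ∧
    (2 < p → ∃ c : ℝ, 0 < c ∧ ∃ n₀ : ℕ, ∀ n : ℕ, n₀ ≤ n → ∀ D : ℝ, 1 < D →
      c * (Real.log n / Real.log (Real.log n)) ^ (p.toReal / 2) / D ^ p.toReal ≤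
        dimLp.{u} p n D) ∧
    (2 < p → ∀ D : ℝ, 1 < D →
      (fun n : ℕ => Real.log n) =o[Filter.atTop] (fun n : ℕ => (dimLp.{u} p n D : ℝ))) := by
  have h1 := PowerBound.result.{u} p hp
  have h2 : 2 < p → 2 < p.toReal := by
    intro h
    have := (ENNReal.toReal_lt_toReal (by norm_num) hp).2 h
    simpa using this
  refine ⟨h1.1, h1.2, fun D hD => upper_dim.{u} p hp D hD, fun h => ?_, fun h D hD => ?_⟩
  · exact lower_dim.{u} p hp (h2 h).le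
  · exact lower_littleO.{u} p hp (h2 h) D hD

end Vale.Agent.Results.P249.AllBounds
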