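import Mathlib
import Vale.Agent.P249.EmbDef
import Vale.Agent.P249.Low.SetVersion

open MeasureTheory
open scoped ENNReal

namespace Vale.Agent.Results.P249.Explicit

open Vale.Agent.P249

universe u

theorem result (p : ℝ≥0∞) [Fact (1 ≤ p)] (hp : p ≠ ∞) :
    (∀ ε : ℝ, 0 < ε → ε ≤ 1 → ∃ n₀ : ℕ, ∀ n : ℕ, n₀ ≤ n →
      ∀ (α : Type u) (_ : MeasurableSpace α) (μ : Measure α) (X : Finset (Lp ℝ p μ)),
        X.card = n → EmbedsInto p X ⌊(n : ℝ) ^ ε⌋₊ (10 ^ 12 * (p.toReal / ε) ^ 3)) ∧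
    (∀ D : ℝ, 1 < D → ∃ C : ℝ, 0 < C ∧ ∀ n : ℕ, 2 ≤ n →
      ∀ (α : Type u) (_ : MeasurableSpace α) (μ : Measure α) (X : Finset (Lp ℝ p μ)),
        X.card = n → EmbedsInto p X ⌊C * n * Real.log n ^ (p.toReal + 1)⌋₊ D) ∧
    (2 < p → ∃ c : ℝ, 0 < c ∧ ∃ n₀ : ℕ, ∀ n : ℕ, n₀ ≤ n →
      ∃ (α : Type u) (_ : MeasurableSpace α) (μ : Measure α) (X : Finset (Lp ℝ p μ)),
        X.card = n ∧ ∀ D : ℝ, 1 ≤ D → ∀ d : ℕ, EmbedsInto p X d D →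
            c * (Real.log n / Real.log (Real.log n)) ^ (p.toReal / 2) / D ^ p.toReal ≤ d) := by
  have h2 : 2 < p → 2 < p.toReal := by
    intro h
    have := (ENNReal.toReal_lt_toReal (by norm_num) hp).2 h
    simpa using this
  refine ⟨fun ε hε0 hε1 => ?_, fun D hD => ?_, fun h => ?_⟩
  · obtain ⟨n₀, hn₀⟩ := suffices_pow.{u} p hp ε hε0 hε1
    refine ⟨n₀, fun n hn α mα μ X hX => ?_⟩
    obtain ⟨d, hd1, hd2⟩ := hn₀ n hn
    exact hasMap_total p X _ (hasMap_mono p hp X _ (Nat.le_floor hd1)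
      (hd2 _ le_rfl α mα μ X hX))
  · obtain ⟨C, hC, hC2⟩ := upper_bound.{u} p hp D hD
    refine ⟨C, hC, fun n hn α mα μ X hX => ?_⟩
    obtain ⟨d, hd1, hd2⟩ := hC2 n hn
    exact hasMap_total p X D (hasMap_mono p hp X D (Nat.le_floor hd1) (hd2 α mα μ X hX))
  · obtain ⟨c, hc, n₀, hn₀⟩ := lower_set.{u} p hp (h2 h).le
    refine ⟨c, hc, n₀, fun n hn => ?_⟩
    obtain ⟨α, mα, μ, X, hX, hX2⟩ := hn₀ n hn
    refine ⟨α, mα, μ, X, hX, fun D hD d hf => ?_⟩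
    obtain ⟨f, hf⟩ := hf
    refine hX2 D hD d (hasMap_of_total p X D 1 one_pos f (fun x hx y hy => ?_))
    have := hf x hx y hy
    simpa using this

end Vale.Agent.Results.P249.Explicit
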