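import Mathlib
import Vale.Agent.P249.Defs
import Vale.Agent.P249.Low.Cor
import Vale.Agent.P249.T3.Final

open MeasureTheory
open scoped ENNReal

namespace Vale.Agent.Results.P249.Full

open Vale.Agent.P249

universe u

theorem result (p : ℝ≥0∞) [Fact (1 ≤ p)] (hp1 : 1 < p) (hp : p ≠ ∞) :
    (∀ D : ℝ, 1 < D →
      (fun n : ℕ => (dimLp.{u} p n D : ℝ)) =o[Filter.atTop] (fun n : ℕ => (n : ℝ))) ∧
    (∀ D : ℝ, 1 < D → ∀ ε : ℝ, 0 < ε →
      ∀ᶠ n : ℕ in Filter.atTop, (dimLp.{u} p n D : ℝ) ≤ (n : ℝ) ^ ε) ∧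
    (∃ γ : ℝ, 0 < γ ∧ γ < 1 ∧
      γ = (if 2 ≤ p.toReal then 1 - (p.toReal - 1) / p.toReal ^ 2
        else 1 - (p.toReal - 1) ^ 2 / (2 * p.toReal)) ∧
      ∀ D : ℝ, 1 < D → ∃ C : ℝ, 0 < C ∧ ∀ n : ℕ, 2 ≤ n →
        Suffices.{u} p n D (dimLp.{u} p n D) ∧
        (dimLp.{u} p n D : ℝ) ≤ Real.exp (C * Real.log n ^ γ)) ∧
    (2 < p → ∃ c : ℝ, 0 < c ∧ ∃ n₀ : ℕ, ∀ n : ℕ, n₀ ≤ n → ∀ D : ℝ, 1 < D →
      c * (Real.log n / Real.log (Real.log n)) ^ (p.toReal / 2) / D ^ p.toReal ≤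
        dimLp.{u} p n D) := by
  have hP1 : 1 < p.toReal := by
    have := (ENNReal.toReal_lt_toReal (by norm_num) hp).2 hp1
    simpa using this
  refine ⟨fun D hD => t3_littleO.{u} p hp hP1 D hD, fun D hD ε hε =>
    t3_pow.{u} p hp hP1 D hD ε hε, ⟨sensR p.toReal / p.toReal, ?_, ?_,
      sens_exponent p.toReal hP1, fun D hD => t3_dim.{u} p hp hP1 D hD⟩, fun h => ?_⟩
  · exact div_pos (by linarith [sensR_ge _ hP1]) (by linarith)
  · rw [div_lt_one (by linarith)]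
    exact sensR_lt _ hP1
  · have h2 : 2 < p.toReal := by
      have := (ENNReal.toReal_lt_toReal (by norm_num) hp).2 h
      simpa using this
    exact lower_dim.{u} p hp h2.le

end Vale.Agent.Results.P249.Full
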